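import Mathlib

/-!
Large families of functionals with a weak square-sum bound, in the dual of an arbitrary
infinite-dimensional normed space (a Dvoretzky-Rogers type lemma, via an extremal operator).
-/

open scoped InnerProductSpace

namespace Vale.Agent.P129

variable {𝕜 : Type*} [RCLike 𝕜]

theorem norm_sq_sum_orth {V : Type*} [NormedAddCommGroup V] [InnerProductSpace 𝕜 V]
    {ι : Type*} {v : ι → V} (hv : Orthonormal 𝕜 v) (a : ι → 𝕜) (s : Finset ι) :
    ‖∑ i ∈ s, a i • v i‖ ^ 2 = ∑ i ∈ s, ‖a i‖ ^ 2 := by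
  rw [@norm_sq_eq_re_inner 𝕜, hv.inner_sum a a s]
  rw [map_sum]
  refine Finset.sum_congr rfl fun i _ => ?_
  rw [RCLike.conj_mul, ← RCLike.ofReal_pow, RCLike.ofReal_re]

theorem norm_partial_le {V : Type*} [NormedAddCommGroup V] [InnerProductSpace 𝕜 V]
    {ι : Type*} [Fintype ι] (b : OrthonormalBasis ι 𝕜 V) (x : V) (s : Finset ι) :
    ‖∑ i ∈ s, b.repr x i • b i‖ ≤ ‖x‖ := by
  have h1 := norm_sq_sum_orth b.orthonormal (fun i => b.repr x i) s
  have h2 := norm_sq_sum_orth b.orthonormal (fun i => b.repr x i) Finset.univ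
  rw [b.sum_repr x] at h2
  have h3 : ∑ i ∈ s, ‖b.repr x i‖ ^ 2 ≤ ∑ i, ‖b.repr x i‖ ^ 2 :=
    Finset.sum_le_sum_of_subset_of_nonneg (Finset.subset_univ _) (fun i _ _ => by positivity)
  exact pow_le_pow_iff_left₀ (norm_nonneg _) (norm_nonneg _) two_ne_zero |>.mp (by
    rw [h1, h2]; exact h3)

theorem exists_extremal_operator {E : Type*} [NormedAddCommGroup E] [NormedSpace 𝕜 E]
    (hE : ¬ FiniteDimensional 𝕜 E) (N : ℕ) :
    ∃ A : EuclideanSpace 𝕜 (Fin N) →L[𝕜] E, ‖A‖ ≤ 1 ∧
      ∀ L : EuclideanSpace 𝕜 (Fin N) →L[𝕜] EuclideanSpace 𝕜 (Fin N),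
        ‖A.comp L‖ ≤ 1 → ‖L.det‖ ≤ 1 := by
  classical
  let B := Module.Basis.ofVectorSpace 𝕜 E
  have hinf : Infinite (Module.Basis.ofVectorSpaceIndex 𝕜 E) := by
    by_contra h
    rw [not_infinite_iff_finite] at h
    exact hE (Module.Finite.of_basis B)
  let j : Fin N ↪ Module.Basis.ofVectorSpaceIndex 𝕜 E :=
    Fin.valEmbedding.trans (Infinite.natEmbedding _)
  have hli : LinearIndependent 𝕜 (fun i => B (j i)) := B.linearIndependent.comp j j.injective
  let e₀ : EuclideanSpace 𝕜 (Fin N) →ₗ[𝕜] E :=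
    (Fintype.linearCombination 𝕜 (fun i => B (j i))).comp
      (WithLp.linearEquiv 2 𝕜 (Fin N → 𝕜)).toLinearMap
  have he₀ : Function.Injective e₀ :=
    (LinearIndependent.fintypeLinearCombination_injective hli).comp
      (WithLp.linearEquiv 2 𝕜 (Fin N → 𝕜)).injective
  obtain ⟨K, _, hanti⟩ := e₀.exists_antilipschitzWith (LinearMap.ker_eq_bot.mpr he₀)
  let e : EuclideanSpace 𝕜 (Fin N) →L[𝕜] E := LinearMap.toContinuousLinearMap e₀
  let S : Set (EuclideanSpace 𝕜 (Fin N) →L[𝕜] EuclideanSpace 𝕜 (Fin N)) :=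
    {B | ‖e.comp B‖ ≤ 1}
  have hSc : IsClosed S := isClosed_le (by fun_prop) continuous_const
  have : ProperSpace (EuclideanSpace 𝕜 (Fin N) →L[𝕜] EuclideanSpace 𝕜 (Fin N)) :=
    FiniteDimensional.proper 𝕜 _
  have hSb : Bornology.IsBounded S := by
    refine isBounded_iff_forall_norm_le.mpr ⟨K, fun T hT => ?_⟩
    refine ContinuousLinearMap.opNorm_le_bound _ K.coe_nonneg fun x => ?_
    have h1 := hanti.le_mul_dist (T x) 0
    rw [map_zero, dist_zero_right, dist_zero_right] at h1
    refine h1.trans (mul_le_mul_of_nonneg_left ?_ K.coe_nonneg)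
    have h2 := (e.comp T).le_opNorm x
    have h3 : ‖e.comp T‖ * ‖x‖ ≤ 1 * ‖x‖ := mul_le_mul_of_nonneg_right hT (norm_nonneg _)
    simp only [one_mul] at h3
    exact h2.trans h3
  have hSk : IsCompact S := Metric.isCompact_of_isClosed_isBounded hSc hSb
  let t : ℝ := 1 / (‖e‖ + 1)
  have htpos : 0 < t := by positivity
  let T₀ : EuclideanSpace 𝕜 (Fin N) →L[𝕜] EuclideanSpace 𝕜 (Fin N) :=
    (t : 𝕜) • ContinuousLinearMap.id 𝕜 _
  have hT₀ : T₀ ∈ S := by
    show ‖e.comp T₀‖ ≤ 1
    simp only [T₀, ContinuousLinearMap.comp_smul, ContinuousLinearMap.comp_id, norm_smul,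
      RCLike.norm_ofReal, abs_of_pos htpos, t]
    rw [div_mul_eq_mul_div, one_mul, div_le_one (by positivity)]
    linarith
  obtain ⟨B₀, hB₀, hmax⟩ := hSk.exists_isMaxOn ⟨T₀, hT₀⟩
    (f := fun B => ‖B.det‖) ContinuousLinearMap.continuous_det.norm.continuousOn
  have hpos : 0 < ‖B₀.det‖ := by
    refine lt_of_lt_of_le ?_ (hmax hT₀)
    have : (T₀.det) ≠ 0 := by
      show LinearMap.det (T₀ : EuclideanSpace 𝕜 (Fin N) →ₗ[𝕜] EuclideanSpace 𝕜 (Fin N)) ≠ 0
      simp only [T₀, ContinuousLinearMap.toLinearMap_smul, LinearMap.det_smul,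
        ContinuousLinearMap.coe_id, LinearMap.det_id, mul_one]
      exact pow_ne_zero _ (RCLike.ofReal_ne_zero.mpr htpos.ne')
    simpa using this
  refine ⟨e.comp B₀, hB₀, fun L hL => ?_⟩
  have h1 : B₀.comp L ∈ S := by
    show ‖e.comp (B₀.comp L)‖ ≤ 1
    rwa [← ContinuousLinearMap.comp_assoc]
  have h2 : ‖(B₀.comp L).det‖ ≤ ‖B₀.det‖ := hmax h1
  have h3 : (B₀.comp L).det = B₀.det * L.det := LinearMap.det_comp _ _
  rw [h3, norm_mul] at h2
  exact le_of_mul_le_mul_left (by simpa using h2) hpos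

theorem exists_orth_large {E : Type*} [NormedAddCommGroup E] [NormedSpace 𝕜 E]
    (h : ℕ) (A : EuclideanSpace 𝕜 (Fin (2 * h)) →L[𝕜] E) (hA : ‖A‖ ≤ 1)
    (hext : ∀ L : EuclideanSpace 𝕜 (Fin (2 * h)) →L[𝕜] EuclideanSpace 𝕜 (Fin (2 * h)),
      ‖A.comp L‖ ≤ 1 → ‖L.det‖ ≤ 1) :
    ∀ m ≤ h, ∃ v : Fin m → EuclideanSpace 𝕜 (Fin (2 * h)),
      Orthonormal 𝕜 v ∧ ∀ i, 1 / 4 ≤ ‖A (v i)‖ := by
  classical
  intro m
  induction m with
  | zero => exact fun _ => ⟨Fin.elim0, ⟨fun i => i.elim0, fun i => i.elim0⟩, fun i => i.elim0⟩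
  | succ m ih =>
    intro hm
    obtain ⟨v, hv, hva⟩ := ih (by omega)
    let v' : Fin (2 * h) → EuclideanSpace 𝕜 (Fin (2 * h)) :=
      fun i => if hi : (i : ℕ) < m then v ⟨i, hi⟩ else 0
    let s : Set (Fin (2 * h)) := {i | (i : ℕ) < m}
    have hv' : Orthonormal 𝕜 (s.domRestrict v') := by
      have he : s.domRestrict v' = v ∘ (fun i : s => (⟨(i : Fin (2 * h)), i.2⟩ : Fin m)) := by
        funext i
        exact dif_pos i.2
      rw [he]
      refine hv.comp _ ?_
      intro a b hab
      exact Subtype.ext (Fin.ext (by simpa using congrArg Fin.val hab))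
    obtain ⟨b, hb⟩ := hv'.exists_orthonormalBasis_extension_of_card_eq
      (ι := Fin (2 * h)) (by simp)
    let S : Finset (Fin (2 * h)) := Finset.univ.filter (fun i => m ≤ (i : ℕ))
    by_cases hex : ∃ a : Fin (2 * h) → 𝕜,
        ‖∑ i ∈ S, a i • b i‖ / 4 < ‖A (∑ i ∈ S, a i • b i)‖
    · obtain ⟨a, ha⟩ := hex
      generalize hw : ∑ i ∈ S, a i • b i = w at ha
      have hw0 : w ≠ 0 := by
        intro h0
        rw [h0] at ha
        simp at ha
      let w' := ((‖w‖⁻¹ : ℝ) : 𝕜) • w
      have hw' : ‖w'‖ = 1 := by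
        simp [w', norm_smul, hw0]
      have horth : ∀ i : Fin m, ⟪v i, w'⟫_𝕜 = 0 := by
        intro i
        have hi : (⟨(i : ℕ), by omega⟩ : Fin (2 * h)) ∈ s := i.2
        have h1 := hb _ hi
        have h2 : v' ⟨(i : ℕ), by omega⟩ = v i := dif_pos i.2
        rw [h2] at h1
        simp only [w', inner_smul_right, ← h1]
        rw [← hw, inner_sum]
        simp only [inner_smul_right]
        refine mul_eq_zero_of_right _ (Finset.sum_eq_zero ?_)
        intro j hj
        have hj' : m ≤ (j : ℕ) := (Finset.mem_filter.mp hj).2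
        rw [b.inner_eq_zero (fun hh => by
          have := congrArg Fin.val hh
          simp at this
          omega), mul_zero]
      refine ⟨Fin.snoc v w', ?_, ?_⟩
      · rw [orthonormal_iff_ite]
        intro i j
        induction i using Fin.lastCases with
        | last =>
          induction j using Fin.lastCases with
          | last => simp [inner_self_eq_norm_sq_to_K, hw']
          | cast j =>
            have hne : Fin.last m ≠ j.castSucc := (Fin.castSucc_lt_last j).ne'
            rw [if_neg hne, Fin.snoc_last, Fin.snoc_castSucc]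
            exact inner_eq_zero_symm.mp (horth j)
        | cast i =>
          induction j using Fin.lastCases with
          | last =>
            rw [if_neg (Fin.castSucc_lt_last i).ne, Fin.snoc_last, Fin.snoc_castSucc]
            exact horth i
          | cast j =>
            rw [Fin.snoc_castSucc, Fin.snoc_castSucc, orthonormal_iff_ite.mp hv i j]
            simp
      · intro i
        induction i using Fin.lastCases with
        | last =>
          simp only [Fin.snoc_last, w', map_smul, norm_smul, RCLike.norm_ofReal]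
          rw [abs_of_nonneg (by positivity)]
          have hp : 0 < ‖w‖ := norm_pos_iff.mpr hw0
          rw [inv_mul_eq_div, le_div_iff₀ hp]
          linarith
        | cast i => simpa using hva i
    · push Not at hex
      exfalso
      let c : Fin (2 * h) → 𝕜 := fun i => if m ≤ (i : ℕ) then 2 else 1 / 2
      let L₀ : EuclideanSpace 𝕜 (Fin (2 * h)) →ₗ[𝕜] EuclideanSpace 𝕜 (Fin (2 * h)) :=
        b.toBasis.constr 𝕜 (fun i => c i • b i)
      let L := LinearMap.toContinuousLinearMap L₀
      have hL : ‖A.comp L‖ ≤ 1 := by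
        refine ContinuousLinearMap.opNorm_le_bound _ zero_le_one fun x => ?_
        have hx : L x = (2 : 𝕜) • ∑ i ∈ S, b.repr x i • b i
            + (1 / 2 : 𝕜) • ∑ i ∈ Sᶜ, b.repr x i • b i := by
          show L₀ x = _
          simp only [L₀, Module.Basis.constr_apply_fintype, Finset.smul_sum]
          rw [← Finset.sum_add_sum_compl S]
          congr 1
          · refine Finset.sum_congr rfl fun i hi => ?_
            have : m ≤ (i : ℕ) := (Finset.mem_filter.mp hi).2
            simp [c, this, smul_smul, mul_comm]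
          · refine Finset.sum_congr rfl fun i hi => ?_
            have : ¬ m ≤ (i : ℕ) := by simpa [S] using hi
            simp [c, this, smul_smul, mul_comm]
        rw [ContinuousLinearMap.comp_apply, hx, map_add, map_smul, map_smul, one_mul]
        refine (norm_add_le _ _).trans ?_
        simp only [norm_smul, norm_div, norm_one, RCLike.norm_ofNat]
        have h1 := hex (fun i => b.repr x i)
        have h2 := norm_partial_le b x S
        have h3 := norm_partial_le b x Sᶜ
        have h4 := A.le_of_opNorm_le hA (∑ i ∈ Sᶜ, b.repr x i • b i)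
        linarith
      have hdet : ‖L.det‖ = (2 : ℝ) ^ (2 * h - m) * (1 / 2 : ℝ) ^ m := by
        show ‖LinearMap.det (L : EuclideanSpace 𝕜 (Fin (2 * h)) →ₗ[𝕜] _)‖ = _
        have hco : (L : EuclideanSpace 𝕜 (Fin (2 * h)) →ₗ[𝕜] _) = L₀ := rfl
        rw [hco, ← LinearMap.det_toMatrix b.toBasis]
        have hmat : LinearMap.toMatrix b.toBasis b.toBasis L₀ = Matrix.diagonal c := by
          ext i j
          rw [LinearMap.toMatrix_apply]
          simp only [L₀, Module.Basis.constr_basis, map_smul, Finsupp.smul_apply]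
          rw [show b j = b.toBasis j from (congrFun b.coe_toBasis j).symm,
            Module.Basis.repr_self]
          by_cases hij : i = j
          · subst hij; simp
          · simp [Finsupp.single_eq_of_ne hij, hij]
        rw [hmat, Matrix.det_diagonal, norm_prod, Fin.prod_univ_eq_prod_range
          (fun i => ‖(if m ≤ i then 2 else 1 / 2 : 𝕜)‖) (2 * h),
          ← Finset.prod_range_mul_prod_Ico _ (show m ≤ 2 * h by omega), mul_comm]
        congr 1
        · rw [Finset.prod_congr rfl (fun i hi => by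
            rw [if_pos (Finset.mem_Ico.mp hi).1])]
          simp
        · rw [Finset.prod_congr rfl (fun i hi => by
            rw [if_neg (by simpa using hi)])]
          simp
      have := hext L hL
      rw [hdet] at this
      have h5 : (2 : ℝ) ^ (m + 1) ≤ 2 ^ (2 * h - m) :=
        pow_le_pow_right₀ one_le_two (by omega)
      have h6 : (2 : ℝ) ^ (m + 1) * (1 / 2) ^ m = 2 := by
        rw [pow_succ, mul_right_comm, ← mul_pow]
        norm_num
      have h7 := mul_le_mul_of_nonneg_right h5 (show (0 : ℝ) ≤ (1 / 2) ^ m by positivity)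
      linarith

/-- In an infinite-dimensional subspace of the dual of a normed space, for every `h` there are
`h` norm-one functionals whose values at any point have square sum at most `16 ‖x‖²`. -/
theorem exists_functional_family {X : Type*} [NormedAddCommGroup X] [NormedSpace 𝕜 X]
    {W : Type*} [NormedAddCommGroup W] [NormedSpace 𝕜 W] (j : W →ₗᵢ[𝕜] StrongDual 𝕜 X)
    (hW : ¬ FiniteDimensional 𝕜 W) (h : ℕ) :
    ∃ u : Fin h → W, (∀ i, ‖u i‖ = 1) ∧
      ∀ x : X, ∑ i, ‖j (u i) x‖ ^ 2 ≤ 16 * ‖x‖ ^ 2 := by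
  obtain ⟨A, hA, hext⟩ := exists_extremal_operator hW (2 * h)
  obtain ⟨v, hv, hva⟩ := exists_orth_large h A hA hext h le_rfl
  have hpos : ∀ i, 0 < ‖A (v i)‖ := fun i => lt_of_lt_of_le (by norm_num) (hva i)
  refine ⟨fun i => ((‖A (v i)‖⁻¹ : ℝ) : 𝕜) • A (v i), fun i => ?_, fun x => ?_⟩
  · simp [norm_smul, (hpos i).ne']
  · let φ : StrongDual 𝕜 (EuclideanSpace 𝕜 (Fin (2 * h))) :=
      (NormedSpace.inclusionInDoubleDual 𝕜 X x).comp (j.toContinuousLinearMap.comp A)
    have hφ : ‖φ‖ ≤ ‖x‖ := by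
      refine ContinuousLinearMap.opNorm_le_bound _ (norm_nonneg _) fun v => ?_
      show ‖j (A v) x‖ ≤ _
      refine ((j (A v)).le_opNorm x).trans ?_
      rw [j.norm_map, mul_comm]
      refine mul_le_mul_of_nonneg_left ?_ (norm_nonneg _)
      exact (A.le_opNorm v).trans (mul_le_of_le_one_left (norm_nonneg _) hA)
    let w := (InnerProductSpace.toDual 𝕜 (EuclideanSpace 𝕜 (Fin (2 * h)))).symm φ
    have hw : ‖w‖ = ‖φ‖ := LinearIsometryEquiv.norm_map _ _
    have hin : ∀ i, ⟪w, v i⟫_𝕜 = j (A (v i)) x := fun i => by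
      rw [InnerProductSpace.toDual_symm_apply]
      rfl
    have hbes := hv.sum_inner_products_le w (s := Finset.univ)
    calc ∑ i, ‖j (((‖A (v i)‖⁻¹ : ℝ) : 𝕜) • A (v i)) x‖ ^ 2
        ≤ ∑ i, 16 * ‖⟪v i, w⟫_𝕜‖ ^ 2 := by
          refine Finset.sum_le_sum fun i _ => ?_
          rw [norm_inner_symm, hin i, map_smul, FunLike.coe_smul, Pi.smul_apply, norm_smul,
            RCLike.norm_ofReal, abs_of_nonneg (by positivity), mul_pow]
          refine mul_le_mul_of_nonneg_right ?_ (by positivity)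
          have h1 : ‖A (v i)‖⁻¹ ≤ 4 := (inv_le_comm₀ (hpos i) (by norm_num)).mpr
            (by linarith [hva i])
          have h2 : (0 : ℝ) ≤ ‖A (v i)‖⁻¹ := by positivity
          calc ‖A (v i)‖⁻¹ ^ 2 ≤ (4 : ℝ) ^ 2 := pow_le_pow_left₀ h2 h1 2
            _ = 16 := by norm_num
      _ ≤ 16 * ‖x‖ ^ 2 := by
          rw [← Finset.mul_sum]
          refine mul_le_mul_of_nonneg_left (hbes.trans ?_) (by norm_num)
          rw [hw]
          exact pow_le_pow_left₀ (norm_nonneg _) hφ 2

theorem not_finiteDimensional_dual {X : Type*} [NormedAddCommGroup X] [NormedSpace 𝕜 X]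
    (hX : ¬ FiniteDimensional 𝕜 X) : ¬ FiniteDimensional 𝕜 (StrongDual 𝕜 X) := by
  intro hfd
  let f : X →ₗ[𝕜] Module.Dual 𝕜 (StrongDual 𝕜 X) :=
    { toFun := fun x => (ContinuousLinearMap.apply 𝕜 𝕜 x).toLinearMap
      map_add' := fun a b => by ext φ; simp
      map_smul' := fun a b => by ext φ; simp }
  refine hX (Module.Finite.of_injective f fun a b hab => ?_)
  refine (NormedSpace.inclusionInDoubleDualLi 𝕜 (E := X)).injective ?_
  ext φ
  exact LinearMap.congr_fun hab φ

end Vale.Agent.P129
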