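import Mathlib

/-!
Selection of a weak-star basic subsequence: if norm-one functionals are absolutely summable on a
dense subspace, then the space has a separable infinite-dimensional quotient.
-/

open Filter TopologicalSpace
open scoped Topology

namespace Vale.Agent.P129

variable {𝕜 : Type*} [RCLike 𝕜] {X : Type*} [NormedAddCommGroup X] [NormedSpace 𝕜 X]
  {W : Type*} [NormedAddCommGroup W] [NormedSpace 𝕜 W] (j : W →ₗᵢ[𝕜] StrongDual 𝕜 X)

theorem exists_norming_finite (E : Submodule 𝕜 X)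
    (hN : ∀ f : W, ∀ r < ‖f‖, ∃ x ∈ E, ‖x‖ ≤ 1 ∧ r < ‖j f x‖)
    (F : Submodule 𝕜 W) [FiniteDimensional 𝕜 F] :
    ∃ G : Submodule 𝕜 X, G ≤ E ∧ FiniteDimensional 𝕜 G ∧
      ∀ f ∈ F, ∃ x ∈ G, ‖x‖ ≤ 1 ∧ 3 / 4 * ‖f‖ ≤ ‖j f x‖ := by
  classical
  have : ProperSpace F := FiniteDimensional.proper 𝕜 F
  obtain ⟨t, hts, htf, hcov⟩ :=
    Metric.finite_approx_of_totallyBounded
      (isCompact_sphere (0 : F) 1).totallyBounded (1 / 16) (by norm_num)
  have hpt : ∀ g ∈ t, ∃ x ∈ E, ‖x‖ ≤ 1 ∧ 15 / 16 < ‖j (g : W) x‖ := by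
    intro g hg
    have hg1 : ‖(g : W)‖ = 1 := mem_sphere_zero_iff_norm.mp (hts hg)
    exact hN (g : W) (15 / 16) (by rw [hg1]; norm_num)
  choose p hpE hp1 hp2 using hpt
  have : Finite t := htf
  refine ⟨Submodule.span 𝕜 (Set.range fun g : t => p g.1 g.2),
    Submodule.span_le.mpr (by rintro _ ⟨g, rfl⟩; exact hpE _ _),
    FiniteDimensional.span_of_finite 𝕜 (Set.finite_range _), fun f hf => ?_⟩
  by_cases hf0 : f = 0
  · exact ⟨0, Submodule.zero_mem _, by simp, by simp [hf0]⟩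
  · have hfp : 0 < ‖f‖ := norm_pos_iff.mpr hf0
    let f₁ : F := ((‖f‖⁻¹ : ℝ) : 𝕜) • ⟨f, hf⟩
    have hf₁ : f₁ ∈ Metric.sphere (0 : F) 1 := by
      simp [f₁, norm_smul, hfp.ne']
    obtain ⟨g, hg, hd⟩ := Set.mem_iUnion₂.mp (hcov hf₁)
    refine ⟨p g hg, Submodule.subset_span ⟨⟨g, hg⟩, rfl⟩, (hp1 g hg), ?_⟩
    rw [Metric.mem_ball, dist_eq_norm] at hd
    have h1 : ‖(j ((g : W) - (f₁ : W))) (p g hg)‖ ≤ 1 / 16 := by
      refine (ContinuousLinearMap.le_opNorm _ _).trans ?_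
      rw [j.norm_map]
      have h2 : ‖(g : W) - (f₁ : W)‖ ≤ 1 / 16 := by
        rw [← norm_neg, neg_sub]
        exact hd.le
      calc _ ≤ (1 / 16 : ℝ) * 1 :=
            mul_le_mul h2 (hp1 g hg) (norm_nonneg _) (by norm_num)
        _ = 1 / 16 := mul_one _
    rw [map_sub, FunLike.coe_sub, Pi.sub_apply] at h1
    have h3 := norm_sub_norm_le (j (g : W) (p g hg)) (j (f₁ : W) (p g hg))
    have h4 : ‖j (f₁ : W) (p g hg)‖ = ‖f‖⁻¹ * ‖j f (p g hg)‖ := by
      simp [f₁, norm_smul]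
    have h5 : 3 / 4 ≤ ‖f‖⁻¹ * ‖j f (p g hg)‖ := by
      rw [← h4]; linarith [hp2 g hg]
    rwa [inv_mul_eq_div, le_div_iff₀ hfp] at h5

theorem exists_tail (z : ℕ → StrongDual 𝕜 X) (E : Submodule 𝕜 X)
    (hsum : ∀ x ∈ E, Summable fun n => ‖z n x‖) (G : Submodule 𝕜 X) (hG : G ≤ E)
    [FiniteDimensional 𝕜 G] {δ : ℝ} (hδ : 0 < δ) :
    ∃ n₀ : ℕ, ∀ S : Finset ℕ, (∀ n ∈ S, n₀ ≤ n) → ∀ x ∈ G,
      ∑ n ∈ S, ‖z n x‖ ≤ δ * ‖x‖ := by
  classical
  let b := Module.finBasis 𝕜 G
  let φ : G →L[𝕜] (Fin (Module.finrank 𝕜 G) → 𝕜) :=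
    LinearMap.toContinuousLinearMap b.equivFun.toLinearMap
  let d : ℝ := δ / ((‖φ‖ + 1) * ((Module.finrank 𝕜 G : ℝ) + 1))
  have hd : 0 < d := by positivity
  have hs : ∀ i, ∃ N, ∀ S : Finset ℕ, (∀ n ∈ S, N ≤ n) →
      ∑ n ∈ S, ‖z n (b i : X)‖ ≤ d := by
    intro i
    obtain ⟨s, hs⟩ := summable_iff_vanishing.mp (hsum _ (hG (b i).2)) (Metric.ball 0 d)
      (Metric.ball_mem_nhds _ hd)
    refine ⟨s.sup id + 1, fun S hS => ?_⟩
    have hdis : Disjoint S s := by
      rw [Finset.disjoint_left]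
      intro n hn hn'
      have h1 := hS n hn
      have h2 : n ≤ s.sup id := Finset.le_sup (f := id) hn'
      omega
    have := hs S hdis
    rw [Metric.mem_ball, dist_zero_right, Real.norm_eq_abs] at this
    exact (le_abs_self _).trans this.le
  choose N hN using hs
  refine ⟨Finset.univ.sup N, fun S hS x hx => ?_⟩
  let y : G := ⟨x, hx⟩
  have hy : x = ∑ i, φ y i • (b i : X) := by
    have := congrArg Subtype.val (b.sum_equivFun y)
    simp only [Submodule.coe_sum, Submodule.coe_smul] at this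
    exact this.symm
  have hc : ∀ i, ‖φ y i‖ ≤ (‖φ‖ + 1) * ‖x‖ := fun i => by
    refine (norm_le_pi_norm (φ y) i).trans ((φ.le_opNorm y).trans ?_)
    exact mul_le_mul_of_nonneg_right (by linarith) (norm_nonneg _)
  calc ∑ n ∈ S, ‖z n x‖ ≤ ∑ n ∈ S, ∑ i, ‖φ y i‖ * ‖z n (b i : X)‖ := by
        refine Finset.sum_le_sum fun n _ => ?_
        conv_lhs => rw [hy, map_sum]
        refine (norm_sum_le _ _).trans (le_of_eq ?_)
        simp [norm_smul]
    _ = ∑ i, ‖φ y i‖ * ∑ n ∈ S, ‖z n (b i : X)‖ := by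
        rw [Finset.sum_comm]
        simp [Finset.mul_sum]
    _ ≤ ∑ _i : Fin (Module.finrank 𝕜 G), (‖φ‖ + 1) * ‖x‖ * d := by
        refine Finset.sum_le_sum fun i _ => mul_le_mul (hc i) (hN i S fun n hn => ?_)
          (by positivity) (by positivity)
        exact le_trans (Finset.le_sup (Finset.mem_univ i)) (hS n hn)
    _ ≤ δ * ‖x‖ := by
        simp only [Finset.sum_const, Finset.card_univ, Fintype.card_fin, nsmul_eq_mul]
        have h1 : d * ((‖φ‖ + 1) * ((Module.finrank 𝕜 G : ℝ) + 1)) = δ :=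
          div_mul_cancel₀ _ (by positivity)
        have h2 : 0 ≤ d * (‖φ‖ + 1) * ‖x‖ := by positivity
        rw [← h1]
        linarith

/-- The properties of the selected subsequence. -/
theorem exists_selection (z : ℕ → W) (E : Submodule 𝕜 X)
    (hN : ∀ f : W, ∀ r < ‖f‖, ∃ x ∈ E, ‖x‖ ≤ 1 ∧ r < ‖j f x‖)
    (hsum : ∀ x ∈ E, Summable fun n => ‖j (z n) x‖) :
    ∃ (φ : ℕ → ℕ) (G : ℕ → Submodule 𝕜 X), StrictMono φ ∧ (∀ k, G k ≤ E) ∧
      (∀ k, FiniteDimensional 𝕜 (G k)) ∧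
      (∀ k, ∀ c : ℕ → 𝕜, ∃ x ∈ G k, ‖x‖ ≤ 1 ∧
        3 / 4 * ‖∑ i ∈ Finset.range (k + 1), c i • z (φ i)‖
          ≤ ‖j (∑ i ∈ Finset.range (k + 1), c i • z (φ i)) x‖) ∧
      (∀ k, ∀ S : Finset ℕ, (∀ i ∈ S, k < i) → ∀ x ∈ G k,
        ∑ i ∈ S, ‖j (z (φ i)) x‖ ≤ (1 / 16) * (1 / 2) ^ k * ‖x‖) := by
  classical
  have hA : ∀ s : Finset ℕ, ∃ (G : Submodule 𝕜 X) (n₀ : ℕ → ℕ), G ≤ E ∧ FiniteDimensional 𝕜 G ∧
      (∀ f ∈ Submodule.span 𝕜 ((s.image z : Finset W) : Set W),
        ∃ x ∈ G, ‖x‖ ≤ 1 ∧ 3 / 4 * ‖f‖ ≤ ‖j f x‖) ∧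
      ∀ k, ∀ S : Finset ℕ, (∀ n ∈ S, n₀ k ≤ n) → ∀ x ∈ G,
        ∑ n ∈ S, ‖j (z n) x‖ ≤ (1 / 16) * (1 / 2) ^ k * ‖x‖ := by
    intro s
    obtain ⟨G, hGE, hGf, hGn⟩ := exists_norming_finite j E hN
      (Submodule.span 𝕜 ((s.image z : Finset W) : Set W))
    choose n₀ hn₀ using fun k : ℕ =>
      exists_tail (fun n => j (z n)) E hsum G hGE (δ := (1 / 16) * (1 / 2) ^ k) (by positivity)
    exact ⟨G, n₀, hGE, hGf, hGn, hn₀⟩
  choose G₀ n₀ hGE hGf hGn hGt using hA
  let st : ℕ → Finset ℕ × ℕ := fun k => Nat.rec (({0} : Finset ℕ), 0)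
    (fun k p => (insert (max (p.2 + 1) (n₀ p.1 k)) p.1, max (p.2 + 1) (n₀ p.1 k))) k
  let φ : ℕ → ℕ := fun k => (st k).2
  have hmono : StrictMono φ := strictMono_nat_of_lt_succ fun k =>
    lt_of_lt_of_le (Nat.lt_succ_self _) (le_max_left _ _)
  have hmem : ∀ k, ∀ i ≤ k, φ i ∈ (st k).1 := by
    intro k
    induction k with
    | zero => intro i hi; simp [Nat.le_zero.mp hi, φ, st]
    | succ k ih =>
      intro i hi
      show φ i ∈ insert (φ (k + 1)) (st k).1
      rcases Nat.lt_or_eq_of_le hi with h | h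
      · exact Finset.mem_insert_of_mem (ih i (Nat.lt_succ_iff.mp h))
      · rw [h]; exact Finset.mem_insert_self _ _
  refine ⟨φ, fun k => G₀ (st k).1, hmono, fun k => hGE _, fun k => hGf _, fun k c => ?_,
    fun k S hS x hx => ?_⟩
  · refine hGn (st k).1 _ (Submodule.sum_mem _ fun i hi => Submodule.smul_mem _ _ ?_)
    refine Submodule.subset_span ?_
    rw [Finset.coe_image]
    exact ⟨φ i, hmem k i (Nat.lt_succ_iff.mp (Finset.mem_range.mp hi)), rfl⟩
  · have := hGt (st k).1 k (S.image φ) (fun n hn => ?_) x hx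
    · rwa [Finset.sum_image (fun a _ b _ hab => hmono.injective hab)] at this
    · obtain ⟨i, hi, rfl⟩ := Finset.mem_image.mp hn
      exact le_trans (le_max_right _ _) (hmono.monotone (hS i hi))

theorem partial_bound (w : ℕ → W) (hw : ∀ i, ‖w i‖ = 1) (G : ℕ → Submodule 𝕜 X)
    (hnorming : ∀ k, ∀ c : ℕ → 𝕜, ∃ x ∈ G k, ‖x‖ ≤ 1 ∧
      3 / 4 * ‖∑ i ∈ Finset.range (k + 1), c i • w i‖
        ≤ ‖j (∑ i ∈ Finset.range (k + 1), c i • w i) x‖)
    (htail : ∀ k, ∀ S : Finset ℕ, (∀ i ∈ S, k < i) → ∀ x ∈ G k,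
      ∑ i ∈ S, ‖j (w i) x‖ ≤ (1 / 16) * (1 / 2) ^ k * ‖x‖)
    (c : ℕ → 𝕜) (K : ℕ) (i : ℕ) (hi : i < K) :
    ‖c i‖ ≤ 4 * ‖∑ j ∈ Finset.range K, c j • w j‖ := by
  classical
  let f : ℕ → W := fun k => ∑ j ∈ Finset.range k, c j • w j
  obtain ⟨k₀, hk₀, hmax⟩ := Finset.exists_max_image (Finset.range (K + 1)) (fun k => ‖f k‖)
    ⟨0, by simp⟩
  have hcoef : ∀ j < K, ‖c j‖ ≤ 2 * ‖f k₀‖ := by
    intro j hj
    have h1 : c j • w j = f (j + 1) - f j := by
      simp [f, Finset.sum_range_succ]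
    have h2 : ‖c j‖ = ‖f (j + 1) - f j‖ := by rw [← h1, norm_smul, hw, mul_one]
    rw [h2, two_mul]
    exact (norm_sub_le _ _).trans (add_le_add (hmax _ (Finset.mem_range.mpr (by omega)))
      (hmax _ (Finset.mem_range.mpr (by omega))))
  have hM : 3 / 4 * ‖f k₀‖ ≤ ‖f K‖ + 1 / 8 * ‖f k₀‖ := by
    rcases k₀ with _ | k
    · simp only [f, Finset.range_zero, Finset.sum_empty, norm_zero, mul_zero, add_zero]
      exact norm_nonneg _
    · have hk : k + 1 ≤ K := Nat.lt_succ_iff.mp (Finset.mem_range.mp hk₀)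
      obtain ⟨x, hxG, hx1, hx⟩ := hnorming k c
      have hsplit : j (f (k + 1)) x
          = j (f K) x - ∑ i ∈ Finset.Ico (k + 1) K, c i * j (w i) x := by
        have : f K = f (k + 1) + ∑ i ∈ Finset.Ico (k + 1) K, c i • w i :=
          (Finset.sum_range_add_sum_Ico _ hk).symm
        rw [this]
        simp
      refine hx.trans ?_
      change ‖j (f (k + 1)) x‖ ≤ _
      rw [hsplit]
      refine (norm_sub_le _ _).trans (add_le_add ?_ ?_)
      · refine ((j (f K)).le_opNorm x).trans ?_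
        rw [j.norm_map]
        exact mul_le_of_le_one_right (norm_nonneg _) hx1
      · refine (norm_sum_le _ _).trans ?_
        calc ∑ i ∈ Finset.Ico (k + 1) K, ‖c i * j (w i) x‖
            ≤ ∑ i ∈ Finset.Ico (k + 1) K, 2 * ‖f (k + 1)‖ * ‖j (w i) x‖ := by
              refine Finset.sum_le_sum fun i hi => ?_
              rw [norm_mul]
              exact mul_le_mul_of_nonneg_right (hcoef i (Finset.mem_Ico.mp hi).2) (norm_nonneg _)
          _ ≤ 2 * ‖f (k + 1)‖ * (1 / 16) := by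
              rw [← Finset.mul_sum]
              refine mul_le_mul_of_nonneg_left ?_ (by positivity)
              refine (htail k _ (fun i hi => (Finset.mem_Ico.mp hi).1) x hxG).trans ?_
              have hp : ((1 : ℝ) / 2) ^ k ≤ 1 := pow_le_one₀ (by norm_num) (by norm_num)
              have hp0 : (0 : ℝ) ≤ (1 / 2) ^ k := by positivity
              nlinarith [norm_nonneg x, mul_le_mul hp hx1 (norm_nonneg x) zero_le_one]
          _ = 1 / 8 * ‖f (k + 1)‖ := by ring
  have := hcoef i hi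
  change ‖c i‖ ≤ 4 * ‖f K‖
  linarith [norm_nonneg (f K)]

theorem exists_preimage_of_approx {V : Type*} [NormedAddCommGroup V] [NormedSpace 𝕜 V]
    [CompleteSpace X] (T : X →L[𝕜] V) (Y : Set V) (hY : ∀ a ∈ Y, ∀ x, a - T x ∈ Y) {C : ℝ}
    (h : ∀ y ∈ Y, ∃ x, ‖x‖ ≤ C * ‖y‖ ∧ ‖T x - y‖ ≤ 1 / 2 * ‖y‖) :
    ∀ y ∈ Y, ∃ x, T x = y ∧ ‖x‖ ≤ 2 * |C| * ‖y‖ := by
  choose! g hg1 hg2 using h
  intro y hy
  let r : ℕ → V := fun n => Nat.rec y (fun _ p => p - T (g p)) n
  have hrY : ∀ n, r n ∈ Y := by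
    intro n
    induction n with
    | zero => exact hy
    | succ n ih => exact hY _ ih _
  have hr : ∀ n, ‖r n‖ ≤ (1 / 2) ^ n * ‖y‖ := by
    intro n
    induction n with
    | zero => simp [r]
    | succ n ih =>
      show ‖r n - T (g (r n))‖ ≤ _
      rw [norm_sub_rev, pow_succ']
      refine (hg2 _ (hrY n)).trans ?_
      rw [mul_assoc]
      exact mul_le_mul_of_nonneg_left ih (by norm_num)
  have hb : ∀ n, ‖g (r n)‖ ≤ |C| * ‖y‖ * (1 / 2) ^ n := fun n => by
    refine (hg1 _ (hrY n)).trans ?_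
    calc C * ‖r n‖ ≤ |C| * ‖r n‖ :=
          mul_le_mul_of_nonneg_right (le_abs_self C) (norm_nonneg _)
      _ ≤ |C| * ((1 / 2) ^ n * ‖y‖) := mul_le_mul_of_nonneg_left (hr n) (abs_nonneg C)
      _ = _ := by ring
  have hsum : Summable fun n => g (r n) :=
    Summable.of_norm_bounded (summable_geometric_two.mul_left _) hb
  refine ⟨∑' n, g (r n), ?_, ?_⟩
  · have h1 := (T.hasSum hsum.hasSum).tendsto_sum_nat
    have h2 : ∀ N, ∑ n ∈ Finset.range N, T (g (r n)) = y - r N := by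
      intro N
      induction N with
      | zero => simp [r]
      | succ N ih =>
        rw [Finset.sum_range_succ, ih]
        show _ = y - (r N - T (g (r N)))
        abel
    have h3 : Tendsto (fun N => y - r N) atTop (𝓝 y) := by
      have hz : Tendsto r atTop (𝓝 0) := by
        refine squeeze_zero_norm hr ?_
        simpa using (tendsto_pow_atTop_nhds_zero_of_lt_one (by norm_num : (0 : ℝ) ≤ 1 / 2)
          (by norm_num)).mul_const ‖y‖
      simpa using tendsto_const_nhds.sub hz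
    simp only [h2] at h1
    exact tendsto_nhds_unique h1 h3
  · have h4 : HasSum (fun n : ℕ => |C| * ‖y‖ * (1 / 2 : ℝ) ^ n) (|C| * ‖y‖ * 2) :=
      hasSum_geometric_two.mul_left _
    exact (tsum_of_norm_bounded h4 hb).trans (le_of_eq (by ring))

theorem exists_bounded_extension {V : Type*} [NormedAddCommGroup V] [NormedSpace 𝕜 V]
    (p : Submodule 𝕜 V) (f : p →ₗ[𝕜] 𝕜) {C : ℝ} (hC : 0 ≤ C)
    (hf : ∀ g : p, ‖f g‖ ≤ C * ‖(g : V)‖) :
    ∃ Φ : StrongDual 𝕜 V, (∀ g : p, Φ g = f g) ∧ ‖Φ‖ ≤ C := by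
  obtain ⟨Φ, hΦ, hn⟩ := exists_extension_norm_eq p (f.mkContinuous C hf)
  exact ⟨Φ, hΦ, hn.le.trans (f.mkContinuous_norm_le hC hf)⟩

theorem quotient_of_range {V : Type*} [NormedAddCommGroup V] [NormedSpace 𝕜 V]
    (T : X →L[𝕜] V) (Y : Submodule 𝕜 V) (hTY : ∀ x, T x ∈ Y)
    (hsep : IsSeparable (Y : Set V)) {C : ℝ}
    (hsurj : ∀ y ∈ Y, ∃ x, T x = y ∧ ‖x‖ ≤ C * ‖y‖)
    (co : ℕ → V) (hco : ∀ i, co i ∈ Y) (hli : LinearIndependent 𝕜 co) :
    ∃ M : Submodule 𝕜 X, IsClosed (M : Set X) ∧ SeparableSpace (X ⧸ M) ∧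
      ¬ FiniteDimensional 𝕜 (X ⧸ M) := by
  refine ⟨T.ker, T.isClosed_ker, ?_, ?_⟩
  · obtain ⟨t, htY, htc, hYt⟩ := hsep.exists_countable_dense_subset
    have hpt : ∀ d : t, ∃ x, T x = d := fun d =>
      (hsurj _ (htY d.2)).imp fun x h => h.1
    choose g hg using hpt
    have : Countable t := htc.to_subtype
    refine ⟨⟨Set.range fun d : t => T.ker.mkQ (g d), Set.countable_range _, ?_⟩⟩
    intro q
    obtain ⟨x, rfl⟩ := T.ker.mkQ_surjective q
    have hx : x ∈ closure {u : X | ∃ d : t, T u = d} := by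
      rw [Metric.mem_closure_iff]
      intro ε hε
      obtain ⟨d, hd, hdd⟩ := Metric.mem_closure_iff.mp (hYt (hTY x)) (ε / (|C| + 1))
        (by positivity)
      obtain ⟨u, hu, hun⟩ := hsurj _ (Y.sub_mem (hTY x) (htY hd))
      refine ⟨x - u, ⟨⟨d, hd⟩, by rw [map_sub, hu]; abel⟩, ?_⟩
      rw [dist_eq_norm, sub_sub_cancel]
      rw [dist_eq_norm, lt_div_iff₀ (by positivity)] at hdd
      have h1 : C * ‖T x - d‖ ≤ |C| * ‖T x - d‖ :=
        mul_le_mul_of_nonneg_right (le_abs_self C) (norm_nonneg _)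
      have h2 := norm_nonneg (T x - d)
      linarith
    refine map_mem_closure continuous_quot_mk hx ?_
    rintro u ⟨d, hd⟩
    refine ⟨d, ?_⟩
    refine (Submodule.Quotient.eq _).mpr ?_
    show T (g d - u) = 0
    rw [map_sub, hg, hd, sub_self]
  · intro hfd
    have hpt : ∀ i, ∃ x, T x = co i := fun i => (hsurj _ (hco i)).imp fun x h => h.1
    choose g hg using hpt
    have hli' : LinearIndependent 𝕜 fun i => T.ker.mkQ (g i) := by
      rw [linearIndependent_iff]
      intro l hl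
      refine linearIndependent_iff.mp hli l ?_
      rw [Finsupp.linearCombination_apply, Finsupp.sum] at hl ⊢
      have hq : T.ker.mkQ (∑ i ∈ l.support, l i • g i) = 0 := by
        rw [map_sum]; simpa only [map_smul] using hl
      have h : T (∑ i ∈ l.support, l i • g i) = 0 := (Submodule.Quotient.mk_eq_zero _).mp hq
      simpa only [map_sum, map_smul, hg] using h
    exact not_finite_iff_infinite.mpr inferInstance hli'.finite

/-- If norm-one functionals from a subspace `W` of the dual are absolutely summable on a subspace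
`E` which norms `W` and is dense for the seminorm given by `W`, then there is a separable
infinite-dimensional quotient. -/
theorem exists_separable_quotient [CompleteSpace X] (z : ℕ → W)
    (hz : ∀ n, ‖z n‖ = 1) (E : Submodule 𝕜 X)
    (hN : ∀ f : W, ∀ r < ‖f‖, ∃ x ∈ E, ‖x‖ ≤ 1 ∧ r < ‖j f x‖)
    (hA : ∀ x : X, ∀ ε > 0, ∃ d ∈ E, ∀ f : W, ‖j f (x - d)‖ ≤ ε * ‖f‖)
    (hsum : ∀ x ∈ E, Summable fun n => ‖j (z n) x‖) :
    ∃ M : Submodule 𝕜 X, IsClosed (M : Set X) ∧ SeparableSpace (X ⧸ M) ∧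
      ¬ FiniteDimensional 𝕜 (X ⧸ M) := by
  classical
  obtain ⟨φ, G, hφ, hGE, hGf, hnorming, htail⟩ := exists_selection j z E hN hsum
  let w : ℕ → W := fun i => z (φ i)
  have hw : ∀ i, ‖w i‖ = 1 := fun i => hz _
  have hcoef : ∀ (c : ℕ → 𝕜) (K i : ℕ), i < K →
      ‖c i‖ ≤ 4 * ‖∑ j ∈ Finset.range K, c j • w j‖ :=
    partial_bound j w hw G hnorming htail
  have hrange : ∀ (l : ℕ →₀ 𝕜) (K : ℕ), l.support ⊆ Finset.range K →
      Finsupp.linearCombination 𝕜 w l = ∑ j ∈ Finset.range K, l j • w j := by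
    intro l K hK
    rw [Finsupp.linearCombination_apply, Finsupp.sum_of_support_subset _ hK _ (by simp)]
  have hbound : ∀ (l : ℕ →₀ 𝕜) (i : ℕ),
      ‖l i‖ ≤ 4 * ‖Finsupp.linearCombination 𝕜 w l‖ := by
    intro l i
    have hK : l.support ⊆ Finset.range (max (l.support.sup id) i + 1) := fun j hj => by
      have : j ≤ l.support.sup id := Finset.le_sup (f := id) hj
      simp only [Finset.mem_range]
      omega
    rw [hrange l _ hK]
    exact hcoef l _ i (by omega)
  have hli : LinearIndependent 𝕜 w := by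
    rw [linearIndependent_iff]
    intro l hl
    ext i
    have := hbound l i
    rw [hl, norm_zero, mul_zero] at this
    simpa using this
  let Z := Submodule.span 𝕜 (Set.range w)
  let b : Module.Basis ℕ 𝕜 Z := Module.Basis.span hli
  have hb : ∀ i, (b i : W) = w i := fun i =>
    congrArg Subtype.val (Module.Basis.span_apply hli i)
  have hbr : ∀ f : Z, (f : W) = Finsupp.linearCombination 𝕜 w (b.repr f) := by
    intro f
    conv_lhs => rw [← b.linearCombination_repr f]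
    simp only [Finsupp.linearCombination_apply, Finsupp.sum, Submodule.coe_sum,
      Submodule.coe_smul, hb]
  let co : ℕ → StrongDual 𝕜 Z := fun i =>
    LinearMap.mkContinuous (b.coord i : Z →ₗ[𝕜] 𝕜) 4 fun f => by
      rw [Module.Basis.coord_apply]
      have := hbound (b.repr f) i
      rwa [← hbr f] at this
  have hco : ∀ i f, co i f = b.repr f i := fun i f => rfl
  let T : X →L[𝕜] StrongDual 𝕜 Z :=
    LinearMap.mkContinuous
      { toFun := fun x =>
          ((NormedSpace.inclusionInDoubleDual 𝕜 X x).comp j.toContinuousLinearMap).comp Z.subtypeL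
        map_add' := fun x y => by ext f; simp
        map_smul' := fun a x => by ext f; simp }
      1 fun x => by
        refine ContinuousLinearMap.opNorm_le_bound _ (by positivity) fun f => ?_
        show ‖j (f : W) x‖ ≤ _
        rw [one_mul, mul_comm, Submodule.coe_norm, ← j.norm_map]
        exact (j (f : W)).le_opNorm x
  have hT : ∀ x (f : Z), T x f = j (f : W) x := fun x f => rfl
  -- distance of `T x` to the finite expansions
  have happrox : ∀ (x : X) (K : ℕ) (r : ℝ), 0 ≤ r →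
      (∀ S : Finset ℕ, (∀ i ∈ S, K ≤ i) → ∑ i ∈ S, ‖j (w i) x‖ ≤ r) →
      ‖T x - ∑ i ∈ Finset.range K, j (w i) x • co i‖ ≤ 4 * r := by
    intro x K r hr hS
    refine ContinuousLinearMap.opNorm_le_bound _ (by positivity) fun f => ?_
    let l := b.repr f
    obtain ⟨N, hN, hKN⟩ : ∃ N, l.support ⊆ Finset.range N ∧ K ≤ N :=
      ⟨max (l.support.sup id + 1) K, fun j hj => by
        have : j ≤ l.support.sup id := Finset.le_sup (f := id) hj
        simp only [Finset.mem_range]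
        omega, le_max_right _ _⟩
    have h1 : j (f : W) x = ∑ n ∈ Finset.range N, l n * j (w n) x := by
      rw [hbr f, hrange _ N hN]
      simp [l]
    have h2 : (T x - ∑ i ∈ Finset.range K, j (w i) x • co i) f
        = ∑ n ∈ Finset.Ico K N, l n * j (w n) x := by
      rw [FunLike.coe_sub, Pi.sub_apply, hT, h1,
        ← Finset.sum_range_add_sum_Ico _ hKN]
      simp [hco, l, mul_comm]
    rw [h2]
    refine (norm_sum_le _ _).trans ?_
    calc ∑ n ∈ Finset.Ico K N, ‖l n * j (w n) x‖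
        ≤ ∑ n ∈ Finset.Ico K N, 4 * ‖f‖ * ‖j (w n) x‖ := by
          refine Finset.sum_le_sum fun n _ => ?_
          rw [norm_mul]
          refine mul_le_mul_of_nonneg_right ?_ (norm_nonneg _)
          have := hbound l n
          rwa [← hbr f] at this
      _ ≤ 4 * ‖f‖ * r := by
          rw [← Finset.mul_sum]
          exact mul_le_mul_of_nonneg_left (hS _ fun i hi => (Finset.mem_Ico.mp hi).1)
            (by positivity)
      _ = 4 * r * ‖f‖ := by ring
  let Y₀ : Submodule 𝕜 (StrongDual 𝕜 Z) := Submodule.span 𝕜 (Set.range co)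
  let Y : Submodule 𝕜 (StrongDual 𝕜 Z) := Y₀.topologicalClosure
  have hTE : ∀ x ∈ E, T x ∈ Y := by
    intro x hx
    show T x ∈ closure (Y₀ : Set (StrongDual 𝕜 Z))
    rw [Metric.mem_closure_iff]
    intro ε hε
    have hs : Summable fun i => ‖j (w i) x‖ := (hsum x hx).comp_injective hφ.injective
    obtain ⟨s, hs'⟩ := summable_iff_vanishing.mp hs (Metric.ball 0 (ε / 5))
      (Metric.ball_mem_nhds _ (by positivity))
    refine ⟨∑ i ∈ Finset.range (s.sup id + 1), j (w i) x • co i,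
      Submodule.sum_mem _ fun i _ => Submodule.smul_mem _ _ (Submodule.subset_span ⟨i, rfl⟩), ?_⟩
    rw [dist_eq_norm]
    have := happrox x (s.sup id + 1) (ε / 5) (by positivity) fun S hS => ?_
    · linarith
    · have hdis : Disjoint S s := by
        rw [Finset.disjoint_left]
        intro n hn hn'
        have h1 := hS n hn
        have h2 : n ≤ s.sup id := Finset.le_sup (f := id) hn'
        omega
      have := hs' S hdis
      rw [Metric.mem_ball, dist_zero_right, Real.norm_eq_abs] at this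
      exact (le_abs_self _).trans this.le
  have hTY : ∀ x, T x ∈ Y := by
    intro x
    refine (Submodule.isClosed_topologicalClosure Y₀).closure_subset ?_
    rw [Metric.mem_closure_iff]
    intro ε hε
    obtain ⟨d, hd, hxd⟩ := hA x (ε / 2) (by positivity)
    refine ⟨T d, hTE d hd, ?_⟩
    rw [dist_eq_norm]
    refine lt_of_le_of_lt (ContinuousLinearMap.opNorm_le_bound _ (by positivity) fun f => ?_)
      (half_lt_self hε)
    rw [FunLike.coe_sub, Pi.sub_apply, hT, hT, ← map_sub]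
    exact hxd (f : W)
  have hsupp : ∀ y ∈ Y₀, ∃ K, ∀ f : Z, (∀ i < K, b.repr f i = 0) → y f = 0 := by
    intro y hy
    induction hy using Submodule.span_induction with
    | mem y hy =>
      obtain ⟨i, rfl⟩ := hy
      exact ⟨i + 1, fun f hf => hf i (Nat.lt_succ_self i)⟩
    | zero => exact ⟨0, fun f _ => rfl⟩
    | add u v _ _ hu hv =>
      obtain ⟨K, hK⟩ := hu
      obtain ⟨L, hL⟩ := hv
      refine ⟨max K L, fun f hf => ?_⟩
      simp [hK f fun i hi => hf i (lt_max_of_lt_left hi),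
        hL f fun i hi => hf i (lt_max_of_lt_right hi)]
    | smul a u _ hu =>
      obtain ⟨K, hK⟩ := hu
      exact ⟨K, fun f hf => by simp [hK f hf]⟩
  -- almost preimages of finitely supported functionals
  have hpre : ∀ y ∈ Y₀, ∀ η > 0, ∃ x, ‖x‖ ≤ 2 * ‖y‖ ∧ ‖T x - y‖ ≤ η := by
    intro y hy η hη
    obtain ⟨K, hK⟩ := hsupp y hy
    obtain ⟨k₁, hk₁⟩ := exists_pow_lt_of_lt_one (show 0 < η / (‖y‖ + 1) by positivity)
      (show (1 / 2 : ℝ) < 1 by norm_num)
    let k := max K k₁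
    have hfd : FiniteDimensional 𝕜 (G k) := hGf k
    let A : (Fin (k + 1) → 𝕜) →ₗ[𝕜] Z := Fintype.linearCombination 𝕜 (fun i => b i)
    let F : Submodule 𝕜 Z := LinearMap.range A
    let J : F →ₗ[𝕜] StrongDual 𝕜 (G k) :=
      { toFun := fun f => (j ((f : Z) : W)).comp (G k).subtypeL
        map_add' := fun f g => by ext u; simp
        map_smul' := fun a f => by ext u; simp }
    have hJ : ∀ f : F, 3 / 4 * ‖f‖ ≤ ‖J f‖ := by
      intro f
      obtain ⟨a, ha⟩ := f.2
      let c : ℕ → 𝕜 := fun i => if hi : i < k + 1 then a ⟨i, hi⟩ else 0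
      have hc : ((f : Z) : W) = ∑ i ∈ Finset.range (k + 1), c i • z (φ i) := by
        rw [← ha, Finset.sum_range]
        simp only [A, Fintype.linearCombination_apply, Submodule.coe_sum, Submodule.coe_smul, hb, c,
          dif_pos (Fin.is_lt _), Fin.eta, w]
      obtain ⟨x, hxG, hx1, hx⟩ := hnorming k c
      rw [← hc] at hx
      refine hx.trans ?_
      have h := (J f).le_opNorm ⟨x, hxG⟩
      exact h.trans (mul_le_of_le_one_right (norm_nonneg _) hx1)
    have hJi : Function.Injective J := by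
      rw [← LinearMap.ker_eq_bot, Submodule.eq_bot_iff]
      intro f hf
      have h := hJ f
      rw [LinearMap.mem_ker.mp hf, norm_zero] at h
      exact norm_le_zero_iff.mp (by linarith)
    let e := LinearEquiv.ofInjective J hJi
    let ψ₀ : LinearMap.range J →ₗ[𝕜] 𝕜 :=
      ((y.toLinearMap : Z →ₗ[𝕜] 𝕜).comp F.subtype).comp e.symm.toLinearMap
    obtain ⟨Ψ, hΨ, hΨn⟩ : ∃ Φ : StrongDual 𝕜 (StrongDual 𝕜 (G k)),
        (∀ g : LinearMap.range J, Φ g = ψ₀ g) ∧ ‖Φ‖ ≤ 4 / 3 * ‖y‖ := by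
      refine exists_bounded_extension (LinearMap.range J) ψ₀ (by positivity) fun g => ?_
      obtain ⟨f, rfl⟩ := e.surjective g
      show ‖y ((e.symm (e f) : F) : Z)‖ ≤ 4 / 3 * ‖y‖ * ‖J f‖
      rw [LinearEquiv.symm_apply_apply]
      have h1 : ‖y (f : Z)‖ ≤ ‖y‖ * ‖f‖ := y.le_opNorm (f : Z)
      have h2 : ‖y‖ * ‖f‖ ≤ ‖y‖ * (4 / 3 * ‖J f‖) :=
        mul_le_mul_of_nonneg_left (by linarith [hJ f]) (norm_nonneg _)
      linarith
    obtain ⟨x, hx⟩ : ∃ x : G k, NormedSpace.inclusionInDoubleDual 𝕜 (G k) x = Ψ := by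
      let g : G k →ₗ[𝕜] Module.Dual 𝕜 (StrongDual 𝕜 (G k)) :=
        { toFun := fun x => (NormedSpace.inclusionInDoubleDual 𝕜 (G k) x).toLinearMap
          map_add' := fun a a' => by ext u; simp
          map_smul' := fun a a' => by ext u; simp }
      have hg : Function.Injective g := fun a a' h => by
        refine (NormedSpace.inclusionInDoubleDualLi 𝕜 (E := G k)).injective ?_
        ext u
        exact LinearMap.congr_fun h u
      have hdim : Module.finrank 𝕜 (G k) =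
          Module.finrank 𝕜 (Module.Dual 𝕜 (StrongDual 𝕜 (G k))) := by
        rw [Subspace.dual_finrank_eq,
          ← (LinearMap.toContinuousLinearMap :
            (G k →ₗ[𝕜] 𝕜) ≃ₗ[𝕜] G k →L[𝕜] 𝕜).finrank_eq]
        exact (Subspace.dual_finrank_eq).symm
      obtain ⟨x, hx⟩ := (LinearMap.injective_iff_surjective_of_finrank_eq_finrank hdim).mp hg
        Ψ.toLinearMap
      exact ⟨x, ContinuousLinearMap.ext fun u => LinearMap.congr_fun hx u⟩
    have hxn : ‖(x : X)‖ ≤ 2 * ‖y‖ := by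
      have h1 : ‖(NormedSpace.inclusionInDoubleDualLi 𝕜 (E := G k)) x‖ = ‖x‖ :=
        LinearIsometry.norm_map _ _
      change ‖NormedSpace.inclusionInDoubleDual 𝕜 (G k) x‖ = ‖x‖ at h1
      rw [hx] at h1
      change ‖x‖ ≤ _
      linarith [norm_nonneg y]
    have hxv : ∀ i ≤ k, j (w i) (x : X) = y (b i) := by
      intro i hi
      have hiF : b i ∈ F := ⟨Pi.single ⟨i, by omega⟩ 1, by
        simp [A, Fintype.linearCombination_apply_single]⟩
      have h1 := hΨ (e ⟨b i, hiF⟩)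
      rw [← hx, NormedSpace.dual_def] at h1
      have h2 : (e ⟨b i, hiF⟩ : StrongDual 𝕜 (G k)) x = j (b i : W) (x : X) := rfl
      rw [h2, hb] at h1
      rw [h1]
      show y ((e.symm (e ⟨b i, hiF⟩) : F) : Z) = _
      rw [LinearEquiv.symm_apply_apply]
    refine ⟨(x : X), hxn, ?_⟩
    have hy_exp : y = ∑ i ∈ Finset.range (k + 1), j (w i) (x : X) • co i := by
      ext f
      let P : Z := ∑ i ∈ Finset.range (k + 1), b.repr f i • b i
      have h0 : y (f - P) = 0 := by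
        refine hK _ fun i hi => ?_
        have hiK : i < k + 1 := lt_of_lt_of_le hi ((le_max_left K k₁).trans (Nat.le_succ _))
        simp [P, Finsupp.single_apply, Finset.mem_range.mpr hiK]
      rw [map_sub, sub_eq_zero] at h0
      rw [h0]
      simp only [P, map_sum, map_smul, smul_eq_mul]
      simp only [_root_.sum_apply, FunLike.coe_smul, Pi.smul_apply,
        smul_eq_mul, hco]
      refine Finset.sum_congr rfl fun i hi => ?_
      rw [hxv i (Nat.lt_succ_iff.mp (Finset.mem_range.mp hi)), mul_comm]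
    rw [hy_exp]
    refine (happrox (x : X) (k + 1) ((1 / 16) * (1 / 2) ^ k * ‖(x : X)‖) (by positivity)
      fun S hS => htail k S (fun i hi => hS i hi) _ x.2).trans ?_
    have h1 : ((1 : ℝ) / 2) ^ k ≤ η / (‖y‖ + 1) :=
      (pow_le_pow_of_le_one (by norm_num) (by norm_num) (le_max_right K k₁)).trans hk₁.le
    rw [le_div_iff₀ (by positivity)] at h1
    have h3 : (0 : ℝ) ≤ (1 / 2) ^ k := by positivity
    nlinarith [hxn, norm_nonneg y]
  have hsurj : ∀ y ∈ Y, ∃ x, T x = y ∧ ‖x‖ ≤ 2 * |(3 : ℝ)| * ‖y‖ := by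
    refine exists_preimage_of_approx T (Y : Set (StrongDual 𝕜 Z))
      (fun a ha x => Y.sub_mem ha (hTY x)) fun y hy => ?_
    by_cases hy0 : y = 0
    · exact ⟨0, by simp [hy0]⟩
    · have hyp : 0 < ‖y‖ := norm_pos_iff.mpr hy0
      obtain ⟨y', hy', hd⟩ := Metric.mem_closure_iff.mp
        (show y ∈ closure (Y₀ : Set (StrongDual 𝕜 Z)) from hy)
        (‖y‖ / 4) (by positivity)
      rw [dist_eq_norm] at hd
      obtain ⟨x, hx1, hx2⟩ := hpre y' hy' (‖y‖ / 4) (by positivity)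
      have h1 : ‖y'‖ ≤ ‖y‖ + ‖y‖ / 4 := by
        calc ‖y'‖ ≤ ‖y‖ + ‖y - y'‖ := norm_le_insert _ _
          _ ≤ _ := by linarith
      refine ⟨x, by linarith, ?_⟩
      have h2 := norm_sub_le_norm_sub_add_norm_sub (T x) y' y
      rw [norm_sub_rev y'] at h2
      linarith
  have hcoli : LinearIndependent 𝕜 co := by
    rw [linearIndependent_iff]
    intro l hl
    ext n
    rw [Finsupp.linearCombination_apply, Finsupp.sum] at hl
    have h := congrArg (fun u : StrongDual 𝕜 Z => u (b n)) hl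
    simpa [hco, Finsupp.single_apply] using h
  exact quotient_of_range T Y hTY ((Set.countable_range co).isSeparable.span (R := 𝕜)).closure
    hsurj co (fun i => Submodule.le_topologicalClosure _ (Submodule.subset_span ⟨i, rfl⟩)) hcoli

end Vale.Agent.P129
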